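import Vale.Agent.P074.Upper

namespace Vale.Agent.Results.P074.UpperThird

open Vale.Agent.P074

theorem result : ∀ d : ℕ, 2 ≤ d → ∀ α : ℝ, Admissible d α → α ≤ 1 / 3 := by
  intro d hd α h
  by_contra hα
  exact not_admissible hd (not_le.1 hα) h

end Vale.Agent.Results.P074.UpperThird
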